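import Vale.Agent.P304.Main

namespace Vale.Agent.Results.P304.Polylog

open Vale.Agent.P304 MeasureTheory

universe u

theorem result : ∃ C : ℝ, ∀ k : ℕ, 2 ≤ k → ∀ (X : Type u) [MetricSpace X] (s : Fin k → X),
    ∃ μ : Measure (List X → Fin k), IsProbabilityMeasure μ ∧
      Competitive s μ (C * Real.log k ^ 5) :=
  ⟨10 ^ 14, fun _ hk _ _ s => polylog hk s⟩

end Vale.Agent.Results.P304.Polylog
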